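import Vale.Agent.P273.H573.Skel
import Vale.Agent.P273.H811.Nd
import Vale.Agent.P273.H852.Far

/-!
# P273, LimFib: the dictionary between 852's regions and the regions of the chart

* `sum852`: sums over the regions;
* `cd`: coordinates of the fibre, measure preserving;
* `cd_preimage`: the domains agree;
* `int_dict`: one summand of 852's decomposition as an integral over `domF`.
-/

noncomputable section

namespace Vale.Agent.P273.H810

open Set MeasureTheory H681 H95 H732 H562 H573 H852

attribute [-instance] Nat.decidableForallFin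

/-! ### sums over the regions -/

theorem sum_conv {M : Type} [AddCommMonoid M] (G : ∀ R : Region, (∀ k, Fin (R.n k + 1)) → M) :
    ∑ R : Region, ∑ m : ∀ k, Fin (R.n k + 1), G R m
      = ∑ R : H852.Reg L (Fin 3), G (to95 R) (m95 R) := by
  rw [← Fintype.sum_sigma' (fun R m => G R m), ← Equiv.sum_comp conv852]
  rfl

/-- **sums over the regions, the eliminated gaps and the far marks** -/
theorem sum852 {M : Type} [AddCommMonoid M]
    (G : ∀ (R : Region) (_ : ∀ k, Fin (R.n k + 1)), (R.Cm → Bool) → M) :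
    ∑ R : Region, ∑ m : ∀ k, Fin (R.n k + 1), ∑ far : R.Cm → Bool, G R m far
      = ∑ R : H852.Reg L (Fin 3), ∑ far : R.Kc → Bool,
          G (to95 R) (m95 R) (fun c => far ((kcE R).symm c)) := by
  rw [sum_conv fun R m => ∑ far : R.Cm → Bool, G R m far]
  refine Finset.sum_congr rfl fun R _ => ?_
  exact (Equiv.sum_comp (Equiv.arrowCongr (kcE R) (Equiv.refl Bool))
    (fun far : (to95 R).Cm → Bool => G (to95 R) (m95 R) far)).symm

/-! ### coordinates -/

section Coord

variable (R : H852.Reg L (Fin 3))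

/-- 852's coordinates of a point of the fibre -/
def cd : Fb (to95 R) (m95 R) ≃ᵐ ((R.Gf → ℝ) × (R.Gf → ℝ)) × (R.Kc → ℂ) :=
  MeasurableEquiv.prodCongr
    (MeasurableEquiv.prodCongr
      (MeasurableEquiv.arrowCongr' (gfE R).symm (MeasurableEquiv.refl ℝ))
      (MeasurableEquiv.arrowCongr' (gfE R).symm (MeasurableEquiv.refl ℝ)))
    (MeasurableEquiv.arrowCongr' (kcE R).symm (MeasurableEquiv.refl ℂ))

theorem cd_apply (x : Fb (to95 R) (m95 R)) :
    cd R x = ((fun g => x.1.1 (gfE R g), fun g => x.1.2 (gfE R g)), fun c => x.2 (kcE R c)) := rfl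

/-- the point of the chart -/
theorem coE_cd (y α : Fin 3 → ℝ) (x : Fb (to95 R) (m95 R)) :
    coE R y α (cd R x) = H573.mk (to95 R) (m95 R) y α x := by
  rw [cd_apply, coE, H573.mk]
  simp only [Equiv.apply_symm_apply]

theorem cd_pres : MeasurePreserving (cd R) volume volume :=
  ((volume_preserving_arrowCongr' (gfE R).symm (MeasurableEquiv.refl ℝ)
      (MeasurePreserving.id volume)).prod
    (volume_preserving_arrowCongr' (gfE R).symm (MeasurableEquiv.refl ℝ)
      (MeasurePreserving.id volume))).prod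
    (volume_preserving_arrowCongr' (kcE R).symm (MeasurableEquiv.refl ℂ)
      (MeasurePreserving.id volume))

end Coord

/-! ### the domains -/

theorem nd_eps (y α : Fin 3 → ℝ) (k : Fin 3) : (nd y α).ε k = epsL y α k := by
  simp only [nd, epsL]
  push_cast
  rfl

theorem mem_core_nd' (y α : Fin 3 → ℝ) (x : ℂ) : x ∈ (H811.nd' y α).core ↔
    ∀ k, x ∉ ell (ctr k) (epsL y α k) (1 / 16) := by
  rw [Necks.core, mem_compl_iff, mem_iUnion, not_exists]
  refine forall_congr' fun k => ?_
  rw [H811.nd'_e, H811.nd'_c, H811.nd'_ε, nd_eps]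

theorem core_far (y α : Fin 3 → ℝ) {x : ℂ} (hx : 11 < ‖x‖) : x ∈ (H811.nd' y α).core := by
  rw [Necks.core, mem_compl_iff, mem_iUnion, not_exists]
  intro k hk
  have h := H811.nd'_ball y α k hk
  rw [mem_closedBall_zero_iff] at h
  exact absurd h (not_le.2 hx)

theorem zone_nd' (y α : Fin 3 → ℝ) (b : Bool) :
    (H811.nd' y α).zone 11 b = H573.zone y α b := by
  rcases b with _ | _
  · ext x
    rw [Necks.zone, H573.zone]
    simp only [Bool.false_eq_true, if_false]
    constructor
    · rintro ⟨h1, h2⟩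
      exact ⟨h2, (mem_core_nd' y α x).1 h1⟩
    · rintro ⟨h1, h2⟩
      exact ⟨(mem_core_nd' y α x).2 h2, h1⟩
  · ext w
    rw [Necks.zone, H573.zone]
    simp only [if_true]
    constructor
    · rintro ⟨-, h2⟩
      have h3 : 11 < ‖w⁻¹‖ := h2
      rw [norm_inv] at h3
      have h4 : w ≠ 0 := by
        rintro rfl
        rw [norm_zero, inv_zero] at h3
        linarith
      have h5 : 0 < ‖w‖ := norm_pos_iff.2 h4
      refine ⟨h4, ?_⟩
      rw [lt_div_iff₀ (by norm_num), mul_comm]
      rw [← one_div, lt_div_iff₀ h5] at h3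
      exact h3
    · rintro ⟨h1, h2⟩
      have h5 : 0 < ‖w‖ := norm_pos_iff.2 h1
      have h3 : 11 < ‖w⁻¹‖ := by
        rw [norm_inv, ← one_div, lt_div_iff₀ h5]
        rw [lt_div_iff₀ (by norm_num), mul_comm] at h2
        exact h2
      exact ⟨core_far y α h3, h3⟩

section Dom

variable (R : H852.Reg L (Fin 3))

/-- the domain of 852's coordinates -/
def S852 (D : Necks (Fin 3)) (R0 : ℝ) (far : R.Kc → Bool) :
    Set (((R.Gf → ℝ) × (R.Gf → ℝ)) × (R.Kc → ℂ)) :=
  (R.dom D ×ˢ R.box) ×ˢ (Set.univ.pi fun c => D.zone R0 (far c))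

theorem fmeas_eq (D : Necks (Fin 3)) (R0 : ℝ) (far : R.Kc → Bool) :
    R.fmeas D R0 far = volume.restrict (S852 R D R0 far) := by
  rw [Reg.fmeas, S852, Measure.prod_restrict, Measure.prod_restrict, ← Measure.volume_eq_prod,
    ← Measure.volume_eq_prod]

/-- **the domains agree** -/
theorem cd_preimage (y α : Fin 3 → ℝ) (far : R.Kc → Bool) :
    cd R ⁻¹' S852 R (H811.nd' y α) 11 far
      = domF (to95 R) (m95 R) (fun c => far ((kcE R).symm c)) y α := by
  ext x
  have hd : (cd R x).1.1 ∈ R.dom (H811.nd' y α) ↔ ∀ f : (W (to95 R) (m95 R)).Fr,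
      0 < x.1.1 f ∧ x.1.1 f < (W (to95 R) (m95 R)).ul (H573.mk (to95 R) (m95 R) y α x)
        ((W (to95 R) (m95 R)).nk f.1) := by
    have h := mem_dom_iff R y α (cd R x)
    rw [coE_cd] at h
    exact h
  have hb : (cd R x).1.2 ∈ R.box ↔ ∀ f, x.1.2 f ∈ Ioc (-Real.pi) Real.pi := by
    rw [Reg.box, angBox, mem_univ_pi]
    constructor
    · intro h f
      have := h ((gfE R).symm f)
      rw [cd_apply] at this
      simpa only [Equiv.apply_symm_apply] using this
    · intro h g
      exact h _
  have hz : (cd R x).2 ∈ (Set.univ.pi fun c => (H811.nd' y α).zone 11 (far c)) ↔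
      ∀ c, x.2 c ∈ H573.zone y α (far ((kcE R).symm c)) := by
    rw [mem_univ_pi]
    constructor
    · intro h c
      have := h ((kcE R).symm c)
      rw [zone_nd', cd_apply] at this
      simpa only [Equiv.apply_symm_apply] using this
    · intro h c
      have := h (kcE R c)
      rw [Equiv.symm_apply_apply] at this
      rw [zone_nd']
      exact this
  rw [mem_preimage, S852, mem_prod, mem_prod, hd, hb, hz, domF]
  constructor
  · rintro ⟨⟨h1, h2⟩, h3⟩
    exact ⟨h1, h2, h3⟩
  · rintro ⟨h1, h2, h3⟩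
    exact ⟨⟨h1, h2⟩, h3⟩

/-- **one summand of the decomposition** -/
theorem int_dict {F : Type} [NormedAddCommGroup F] [NormedSpace ℝ F] (y α : Fin 3 → ℝ)
    (far : R.Kc → Bool) (g : ((R.Gf → ℝ) × (R.Gf → ℝ)) × (R.Kc → ℂ) → F) :
    ∫ q, g q ∂(R.fmeas (H811.nd' y α) 11 far)
      = ∫ x in domF (to95 R) (m95 R) (fun c => far ((kcE R).symm c)) y α, g (cd R x) := by
  rw [fmeas_eq, ← cd_preimage]
  exact ((cd_pres R).setIntegral_preimage_emb (cd R).measurableEmbedding g _).symm

/-- the same for integrability -/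
theorem integrable_dict {F : Type} [NormedAddCommGroup F] [NormedSpace ℝ F] (y α : Fin 3 → ℝ)
    (far : R.Kc → Bool) (g : ((R.Gf → ℝ) × (R.Gf → ℝ)) × (R.Kc → ℂ) → F)
    (hg : Integrable g (R.fmeas (H811.nd' y α) 11 far)) :
    IntegrableOn (fun x => g (cd R x))
      (domF (to95 R) (m95 R) (fun c => far ((kcE R).symm c)) y α) := by
  rw [fmeas_eq] at hg
  rw [← cd_preimage]
  exact ((cd_pres R).integrableOn_comp_preimage (cd R).measurableEmbedding).2 hg

end Dom

/-- **the fibre integral is the sum over the regions of the chart** -/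
theorem region_sum {F : Type} [NormedAddCommGroup F] [NormedSpace ℝ F] {y α : Fin 3 → ℝ}
    (hy : ∀ k, 0 < y k) {g : (L → ℂ × ℂ) → F}
    (hg : Integrable g (Measure.pi fun _ : L => sheetMeas (H811.nd' y α).s volume)) :
    ∫ P, g P ∂(Measure.pi fun _ : L => sheetMeas (H811.nd' y α).s volume)
      = ∑ R : H852.Reg L (Fin 3), ∑ far : R.Kc → Bool,
        ∫ x in domF (to95 R) (m95 R) (fun c => far ((kcE R).symm c)) y α,
          R.fjac (H811.nd' y α) far (cd R x) • g (R.fpos (H811.nd' y α) far (cd R x)) := by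
  rw [region_integral (H811.nd'_good hy) (by norm_num : (0 : ℝ) ≤ 11) hg]
  refine Finset.sum_congr rfl fun R _ =>
    Finset.sum_congr (by ext x; simp only [Finset.mem_univ]) fun far _ => ?_
  exact int_dict R y α far fun q => R.fjac (H811.nd' y α) far q •
    g (R.fpos (H811.nd' y α) far q)

/-- the same, with the shape of the right side of `LimFib` -/
theorem region_sum_of {y α : Fin 3 → ℝ} (hy : ∀ k, 0 < y k) {g : (L → ℂ × ℂ) → ℝ}
    (hg : Integrable g (Measure.pi fun _ : L => sheetMeas (H811.nd' y α).s volume))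
    (G : ∀ (R : Region) (m : ∀ k, Fin (R.n k + 1)) (_ : R.Cm → Bool), Fb R m → ℝ)
    (h : ∀ (R : H852.Reg L (Fin 3)) (far : R.Kc → Bool),
      ∀ᵐ x ∂(volume.restrict (domF (to95 R) (m95 R) (fun c => far ((kcE R).symm c)) y α)),
        R.fjac (H811.nd' y α) far (cd R x) * g (R.fpos (H811.nd' y α) far (cd R x))
          = G (to95 R) (m95 R) (fun c => far ((kcE R).symm c)) x) :
    ∫ P, g P ∂(Measure.pi fun _ : L => sheetMeas (H811.nd' y α).s volume)
      = ∑ R : Region, ∑ m : ∀ k, Fin (R.n k + 1), ∑ far : R.Cm → Bool,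
        ∫ x in domF R m far y α, G R m far x := by
  rw [region_sum hy hg, sum852 fun R m far => ∫ x in domF R m far y α, G R m far x]
  refine Finset.sum_congr rfl fun R _ => Finset.sum_congr rfl fun far _ => ?_
  exact integral_congr_ae (h R far)

end Vale.Agent.P273.H810
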